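import Vale.Agent.P286ET.Spec
import Vale.Agent.P286ET1.Gauge

/-!
# Reduction of the Fourier-Mukai equivalence to the normalised situation
-/

namespace Vale.Agent.P286ET

open CategoryTheory Ix

noncomputable section

theorem hom_ind {P : ∀ {i j : Ix}, (i ⟶ j) → Prop} (h0 : ∀ i, P (𝟙 i)) (ha : P (tn a))
    (hb : P (tn b)) {i j : Ix} (u : i ⟶ j) : P u := by
  rcases (leOfHom u : i = j ∨ j = n) with rfl | rfl
  · rw [hom_eq u (𝟙 _)]
    exact h0 _
  · cases i
    · rw [hom_eq u (tn a)]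
      exact ha
    · rw [hom_eq u (tn b)]
      exact hb
    · rw [hom_eq u (𝟙 _)]
      exact h0 _

theorem eq_n {k : Ix} (v : n ⟶ k) : k = n := by
  rcases (leOfHom v : n = k ∨ k = n) with h | h
  · exact h.symm
  · exact h

variable {T : TDat Ix}

/-- The cocycle which is `z` on the arrow from `b` and zero otherwise. -/
def sel (z : T.R n) : ∀ _ j : Ix, T.R j
  | b, n => z
  | _, _ => 0

/-- The multiplicative cocycle which is `z` on the arrow from `b` and one otherwise. -/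
def selU (z : (T.R n)ˣ) : ∀ _ j : Ix, (T.R j)ˣ
  | b, n => z
  | _, _ => 1

theorem sel_self (z : T.R n) (i : Ix) : sel z i i = 0 := by cases i <;> rfl

theorem selU_self (z : (T.R n)ˣ) (i : Ix) : selU z i i = 1 := by cases i <;> rfl

theorem sel_comp (z : T.R n) {i j k : Ix} (u : i ⟶ j) (v : j ⟶ k) :
    sel z i k = T.tau v (sel z i j) + sel z j k := by
  rcases (leOfHom u : i = j ∨ j = n) with rfl | rfl
  · rw [sel_self, map_zero, zero_add]
  · obtain rfl := eq_n v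
    rw [hom_eq v (𝟙 _), T.tau_id, sel_self, add_zero]

theorem selU_comp (z : (T.R n)ˣ) {i j k : Ix} (u : i ⟶ j) (v : j ⟶ k) :
    (selU z i k : T.R k) = T.tau v (selU z i j) * selU z j k := by
  rcases (leOfHom u : i = j ∨ j = n) with rfl | rfl
  · rw [selU_self, Units.val_one, map_one, one_mul]
  · obtain rfl := eq_n v
    rw [hom_eq v (𝟙 _), T.tau_id, selU_self, Units.val_one, mul_one]

theorem w_sel {z : T.R n} (hz : T.w n z = - z) (i j : Ix) : T.w j (sel z i j) = - sel z i j := by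
  cases i <;> cases j <;> first | exact hz | (change T.w _ 0 = - 0; rw [map_zero, neg_zero])

/-- The datum with rescaled vector field and a cocycle concentrated on one arrow. -/
def nrm (T : TDat Ix) (μ : ℂ) (z : T.R n) (hz : T.w n z = - z) : TDat Ix where
  R := T.R
  tau := T.tau
  tau_id := T.tau_id
  tau_comp := T.tau_comp
  dd i := μ • T.dd i
  tau_dd u r := by rw [Derivation.smul_apply, Derivation.smul_apply, map_smul, T.tau_dd]
  w := T.w
  w_w := T.w_w
  tau_w := T.tau_w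
  w_dd i r := by
    rw [Derivation.smul_apply, Derivation.smul_apply, map_smul, T.w_dd, smul_neg]
  eta {i j} _ := sel z i j
  eta_id := sel_self z
  eta_comp := sel_comp z
  w_eta {i j} _ := w_sel hz i j
  s := T.s
  away := T.away

variable {p q ν : ℂ}

/-- The elliptic curve structure of the normalised datum. -/
def EllD.nrm (E : EllD T p q ν) (hν : ν ≠ 0) (z : T.R n) (hz : T.w n z = - z) :
    EllD (nrm T ν⁻¹ z hz) p q 1 where
  x := E.x
  y := E.y
  u := E.u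
  t := E.t
  gi := E.gi
  eqn := E.eqn
  gen_a := E.gen_a
  free := E.free
  away_a := E.away_a
  gi_mul := E.gi_mul
  gen_b := E.gen_b
  inj_b := E.inj_b
  tau_u := E.tau_u
  tau_t := E.tau_t
  dd_x := by
    change ν⁻¹ • T.dd a E.x = (1 : ℂ) • E.y
    rw [E.dd_x, smul_smul, inv_mul_cancel₀ hν]
  dd_y := by
    have h : (2 : ℂ) • ν⁻¹ • T.dd a E.y =
        (1 : ℂ) • ((3 : ℂ) • E.x ^ 2 + (2 * p) • E.x + algebraMap ℂ (T.R a) q) := by
      rw [smul_comm, E.dd_y, smul_smul, inv_mul_cancel₀ hν]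
    exact h
  w_x := E.w_x
  w_y := E.w_y

theorem ring_phi {R : Type} [CommRing R] {X Y U V G P Q N H f df dY c : R} (hY : IsUnit Y)
    (hX : IsUnit X) (e1 : Y ^ 2 = X * (X ^ 2 + P * X + Q)) (e2 : U * X = Q)
    (e3 : V * X ^ 2 = - (Q * Y)) (e4 : G * (U ^ 2 + P * U + Q) = 1) (e5 : f * Y = X)
    (e6 : df * Y + f * dY = N * Y) (e7 : 2 * dY = N * (3 * X ^ 2 + 2 * P * X + Q))
    (e8 : 2 * X * H = - Y) (e9 : 2 * c = 1) :
    df = f * (N * H - N * (c * (V * G * (P + 2 * U)))) := by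
  have h1 : G * (Q * (X ^ 2 + P * X + Q)) = X ^ 2 := by
    linear_combination X ^ 2 * e4 - G * (U * X + Q + P * X) * e2
  have h2 : V * G * Y = - X := by
    refine (hX.pow 2).mul_right_cancel ?_
    linear_combination G * Y * e3 - G * Q * e1 - X * h1
  have h3 : dY = c * (N * (3 * X ^ 2 + 2 * P * X + Q)) := by
    linear_combination c * e7 - dY * e9
  have h4 : X * H = - (c * Y) := by
    linear_combination c * e8 - X * H * e9
  refine (hY.pow 2).mul_right_cancel ?_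
  have h5 : df * Y ^ 2 = N * Y ^ 2 - X * dY := by
    linear_combination Y * e6 - dY * e5
  have h6 : f * (N * H - N * (c * (V * G * (P + 2 * U)))) * Y ^ 2 =
      N * (X * H) * Y - N * c * X * (V * G * Y) * (P + 2 * U) := by
    linear_combination (N * H - N * (c * (V * G * (P + 2 * U)))) * Y * e5
  rw [h5, h6, h2, h4, h3]
  linear_combination 3 * N * c * e1 - N * Y ^ 2 * e9 - 2 * N * c * X * e2

namespace EllD

variable (E : EllD T p q ν)

theorem eqn' : T.tau (tn a) E.y ^ 2 = T.tau (tn a) E.x * (T.tau (tn a) E.x ^ 2 +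
    algebraMap ℂ _ p * T.tau (tn a) E.x + algebraMap ℂ _ q) := by
  have h := congrArg (T.tau (tn a)) E.eqn
  simpa only [map_pow, map_mul, map_add, map_smul, AlgHom.commutes, Algebra.smul_def] using h

theorem unit_x : IsUnit (T.tau (tn a) E.x) := by
  have h := E.away_a.unit.pow 2
  rw [E.eqn'] at h
  exact isUnit_of_mul_isUnit_left h

theorem gi_mul' : T.tau (tn b) E.gi * (T.tau (tn b) E.u ^ 2 +
    algebraMap ℂ _ p * T.tau (tn b) E.u + algebraMap ℂ _ q) = 1 := by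
  have h := congrArg (T.tau (tn b)) E.gi_mul
  simpa only [map_pow, map_mul, map_add, map_smul, AlgHom.commutes, Algebra.smul_def, map_one]
    using h

theorem w_X : T.w n (T.tau (tn a) E.x) = T.tau (tn a) E.x := by rw [← T.tau_w, E.w_x]

theorem w_Y : T.w n (T.tau (tn a) E.y) = - T.tau (tn a) E.y := by rw [← T.tau_w, E.w_y, map_neg]

theorem w_U : T.w n (T.tau (tn b) E.u) = T.tau (tn b) E.u := by
  have h := congrArg (T.w n) E.tau_u
  rw [map_mul, E.w_X, AlgHom.commutes, ← E.tau_u] at h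
  exact E.unit_x.mul_right_cancel h

theorem w_V : T.w n (T.tau (tn b) E.t) = - T.tau (tn b) E.t := by
  have h := congrArg (T.w n) E.tau_t
  rw [map_mul, map_pow, E.w_X, map_neg, map_smul, E.w_Y, smul_neg, ← E.tau_t] at h
  refine (E.unit_x.pow 2).mul_right_cancel ?_
  rw [h, neg_mul]

theorem w_G : T.w n (T.tau (tn b) E.gi) = T.tau (tn b) E.gi := by
  have h := congrArg (T.w n) E.gi_mul'
  rw [map_mul, map_add, map_add, map_pow, map_mul, E.w_U, AlgHom.commutes, AlgHom.commutes,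
    map_one] at h
  linear_combination T.tau (tn b) E.gi * h - T.w n (T.tau (tn b) E.gi) * E.gi_mul'

theorem w_hb : T.w n E.hb = - E.hb := by
  rw [EllD.hb, map_smul, map_mul, E.w_Y, E.w_U, neg_mul, smul_neg]

theorem x_hb (hq : q ≠ 0) : 2 * T.tau (tn a) E.x * E.hb = - T.tau (tn a) E.y := by
  have h2 : (2 : T.R n) = algebraMap ℂ _ 2 := (map_ofNat _ 2).symm
  have h : algebraMap ℂ (T.R n) (-(2 * q)⁻¹) * (2 * algebraMap ℂ _ q) = -1 := by
    rw [h2, ← map_mul, ← map_mul, neg_mul, inv_mul_cancel₀ (mul_ne_zero two_ne_zero hq), map_neg,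
      map_one]
  rw [EllD.hb, Algebra.smul_def]
  linear_combination T.tau (tn a) E.y * h +
    2 * algebraMap ℂ (T.R n) (-(2 * q)⁻¹) * T.tau (tn a) E.y * E.tau_u

/-- There is a unit whose logarithmic derivative has class `k`. -/
def Sh (k : ℤ) : Prop := ∃ (φ : (T.R n)ˣ) (s : ℤˣ) (β : T.R b), T.w n φ = (s : ℤ) • (φ : T.R n) ∧
  T.w b β = - β ∧ T.dd n φ = φ * (((k : ℂ) * ν) • E.hb + T.tau (tn b) β)

theorem sh_zero : E.Sh 0 := ⟨1, 1, 0, by simp, by simp, by simp⟩

theorem sh_add {k l : ℤ} (h : E.Sh k) (h' : E.Sh l) : E.Sh (k + l) := by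
  obtain ⟨φ, s, β, h1, h2, h3⟩ := h
  obtain ⟨φ', s', β', h1', h2', h3'⟩ := h'
  refine ⟨φ * φ', s * s', β + β', ?_, ?_, ?_⟩
  · rw [Units.val_mul, map_mul, h1, h1', Units.val_mul, smul_mul_smul_comm]
  · rw [map_add, h2, h2', neg_add]
  · rw [Units.val_mul, Derivation.leibniz, h3, h3', Int.cast_add, add_mul, add_smul, map_add,
      smul_eq_mul, smul_eq_mul]
    ring

theorem sh_neg {k : ℤ} (h : E.Sh k) : E.Sh (-k) := by
  obtain ⟨φ, s, β, h1, h2, h3⟩ := h
  have hφ : (φ : T.R n) * (φ⁻¹ : (T.R n)ˣ) = 1 := φ.mul_inv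
  refine ⟨φ⁻¹, s, -β, ?_, ?_, ?_⟩
  · have h4 := congrArg (T.w n) hφ
    rw [map_mul, map_one, h1, zsmul_eq_mul] at h4
    have h5 : ((s : ℤ) : T.R n) * ((s : ℤ) : T.R n) = 1 := by
      rw [← Int.cast_mul, ← Units.val_mul, Int.units_mul_self, Units.val_one, Int.cast_one]
    rw [zsmul_eq_mul]
    linear_combination ((s : ℤ) : T.R n) * (φ⁻¹ : (T.R n)ˣ) * h4 -
      T.w n (φ⁻¹ : (T.R n)ˣ) * φ * (φ⁻¹ : (T.R n)ˣ) * h5 - T.w n (φ⁻¹ : (T.R n)ˣ) * hφ
  · rw [map_neg, h2]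
  · have h4 := congrArg (T.dd n) hφ
    rw [Derivation.leibniz, Derivation.map_one_eq_zero, h3, smul_eq_mul, smul_eq_mul] at h4
    rw [Int.cast_neg, neg_mul, neg_smul, map_neg]
    linear_combination (φ⁻¹ : (T.R n)ˣ) * h4 - (T.dd n (φ⁻¹ : (T.R n)ˣ) +
      (φ⁻¹ : (T.R n)ˣ) * (((k : ℂ) * ν) • E.hb + T.tau (tn b) β)) * hφ

theorem sh_one (hq : q ≠ 0) : E.Sh 1 := by
  have hY := E.away_a.unit
  have hX := E.unit_x
  have e5 : ((hX.unit * hY.unit⁻¹ : (T.R n)ˣ) : T.R n) * T.tau (tn a) E.y = T.tau (tn a) E.x := by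
    rw [Units.val_mul, mul_assoc, hY.val_inv_mul, mul_one, hX.unit_spec]
  generalize hX.unit * hY.unit⁻¹ = φ at e5
  refine ⟨φ, -1, -(ν • (2⁻¹ : ℂ) • (E.t * E.gi * (algebraMap ℂ _ p + 2 * E.u))), ?_, ?_, ?_⟩
  · have h := congrArg (T.w n) e5
    rw [map_mul, E.w_Y, E.w_X, ← e5] at h
    refine hY.mul_right_cancel ?_
    rw [Units.val_neg, Units.val_one, neg_smul, one_smul]
    linear_combination -h
  · refine E.inj_b ?_
    rw [T.tau_w]
    simp only [map_neg, map_smul, map_mul, map_add, AlgHom.commutes, map_ofNat, E.w_U, E.w_V,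
      E.w_G, neg_mul, smul_neg]
  · have e6 := congrArg (T.dd n) e5
    rw [Derivation.leibniz, ← T.tau_dd, ← T.tau_dd, E.dd_x, map_smul, smul_eq_mul, smul_eq_mul,
      Algebra.smul_def] at e6
    have e7 := congrArg (T.tau (tn a)) E.dd_y
    simp only [map_add, map_pow, AlgHom.commutes, Algebra.smul_def, map_mul, map_ofNat] at e7
    have e9 : 2 * algebraMap ℂ (T.R n) 2⁻¹ = 1 := by
      rw [← map_ofNat (algebraMap ℂ (T.R n)) 2, ← map_mul, mul_inv_cancel₀ two_ne_zero, map_one]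
    have e3 := E.tau_t
    rw [Algebra.smul_def] at e3
    have h := ring_phi (df := T.dd n φ) (N := algebraMap ℂ _ ν) hY hX E.eqn' E.tau_u e3 E.gi_mul'
      e5 (by linear_combination e6) e7 (E.x_hb hq) e9
    rw [h]
    simp only [map_neg, map_mul, map_add, AlgHom.commutes, map_ofNat, Algebra.smul_def,
      Int.cast_one, one_mul, sub_eq_add_neg]

theorem sh (hq : q ≠ 0) (k : ℤ) : E.Sh k := by
  induction k using Int.induction_on with
  | zero => exact E.sh_zero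
  | succ i h => exact E.sh_add h (E.sh_one hq)
  | pred i h => exact E.sh_add h (E.sh_neg (E.sh_one hq))

theorem lev_odd {l : ℂ} (h : E.Lev l) : ∃ (r : T.R a) (r' : T.R b), T.w a r = - r ∧
    T.w b r' = - r' ∧
    T.eta (tn b) - T.eta (tn a) = (l * ν) • E.hb + T.tau (tn a) r + T.tau (tn b) r' := by
  obtain ⟨r, r', h⟩ := h
  have h1 := congrArg (T.w n) h
  rw [map_sub, T.w_eta, T.w_eta, map_add, map_add, map_smul, E.w_hb, ← T.tau_w, ← T.tau_w,
    smul_neg] at h1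
  refine ⟨(2⁻¹ : ℂ) • (r - T.w a r), (2⁻¹ : ℂ) • (r' - T.w b r'), ?_, ?_, ?_⟩
  · rw [map_smul, map_sub, T.w_w, ← smul_neg, neg_sub]
  · rw [map_smul, map_sub, T.w_w, ← smul_neg, neg_sub]
  · rw [map_smul, map_smul, map_sub, map_sub]
    have h2 : T.tau (tn a) (T.w a r) + T.tau (tn b) (T.w b r') =
        - (T.tau (tn a) r + T.tau (tn b) r') := by
      linear_combination -h1 - h
    have h3 : (2⁻¹ : ℂ) • (T.tau (tn a) r - T.tau (tn a) (T.w a r)) +
        (2⁻¹ : ℂ) • (T.tau (tn b) r' - T.tau (tn b) (T.w b r')) =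
        T.tau (tn a) r + T.tau (tn b) r' := by
      rw [← smul_add, sub_add_sub_comm, h2, sub_neg_eq_add, ← two_smul ℂ, smul_smul,
        inv_mul_cancel₀ two_ne_zero, one_smul]
    rw [add_assoc, h3, h, add_assoc]

theorem w_smul_hb (c : ℂ) : T.w n (c • E.hb) = - (c • E.hb) := by
  rw [map_smul, E.w_hb, smul_neg]

theorem teq_nrm (hq : q ≠ 0) (hν : ν ≠ 0) {l : ℂ} (h : E.Lev l) (k : ℤ) :
    TEq T (P286ET.nrm T ν⁻¹ ((l + k) • E.hb) (E.w_smul_hb _)) := by
  obtain ⟨r, r', hr, hr', h⟩ := E.lev_odd h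
  obtain ⟨φ, s, β, h1, h2, h3⟩ := E.sh hq (-k)
  let B : ∀ i : Ix, T.R i := fun i => match i with
    | a => ν⁻¹ • r
    | b => ν⁻¹ • (β - r')
    | n => ν⁻¹ • T.eta (tn a) + T.tau (tn a) (ν⁻¹ • r)
  let sg : Ix → ℤˣ := fun i => match i with
    | b => s
    | _ => 1
  refine teq_gauge T _ (fun i => AlgEquiv.refl) (fun _ _ => rfl) (fun _ _ => rfl) ν⁻¹
    (inv_ne_zero hν) (fun _ _ => rfl) B ?_ sg (fun {i j} _ => selU φ i j)
    (fun i => congrArg Units.val (selU_self φ i)) (fun u v => selU_comp φ u v) ?_ ?_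
  · intro i
    cases i
    · change T.w a (ν⁻¹ • r) = - (ν⁻¹ • r)
      rw [map_smul, hr, smul_neg]
    · change T.w b (ν⁻¹ • (β - r')) = - (ν⁻¹ • (β - r'))
      rw [map_smul, map_sub, h2, hr', ← smul_neg, neg_sub, neg_sub_neg]
    · change T.w n (ν⁻¹ • T.eta (tn a) + T.tau (tn a) (ν⁻¹ • r)) =
        - (ν⁻¹ • T.eta (tn a) + T.tau (tn a) (ν⁻¹ • r))
      rw [map_add, ← T.tau_w, map_smul, map_smul, T.w_eta, hr, smul_neg, smul_neg, map_neg,
        neg_add]
  · intro i j u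
    refine hom_ind (P := fun {i j} _ => T.w j (selU φ i j) =
      ((sg i : ℤ) * (sg j : ℤ)) • (selU φ i j : T.R j)) (fun i => ?_) ?_ ?_ u
    · rw [selU_self, Units.val_one, map_one, ← Units.val_mul, Int.units_mul_self, Units.val_one,
        one_smul]
    · change T.w n 1 = ((1 : ℤ) * 1) • (1 : T.R n)
      rw [map_one, mul_one, one_smul]
    · change T.w n φ = ((s : ℤ) * 1) • (φ : T.R n)
      rw [mul_one, h1]
  · intro i j u
    refine hom_ind (P := fun {i j} u => sel ((l + k) • E.hb) i j * (selU φ i j : T.R j) =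
      selU φ i j * (ν⁻¹ • T.eta u + T.tau u (B i) - B j) - ν⁻¹ • T.dd j (selU φ i j))
      (fun i => ?_) ?_ ?_ u
    · rw [selU_self, sel_self, T.eta_id, T.tau_id, Units.val_one, Derivation.map_one_eq_zero]
      simp
    · change (0 : T.R n) * 1 = 1 * (ν⁻¹ • T.eta (tn a) + T.tau (tn a) (ν⁻¹ • r) -
        (ν⁻¹ • T.eta (tn a) + T.tau (tn a) (ν⁻¹ • r))) - ν⁻¹ • T.dd n 1
      rw [Derivation.map_one_eq_zero]
      simp
    · change ((l + k) • E.hb) * (φ : T.R n) = φ * (ν⁻¹ • T.eta (tn b) +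
        T.tau (tn b) (ν⁻¹ • (β - r')) - (ν⁻¹ • T.eta (tn a) + T.tau (tn a) (ν⁻¹ • r))) -
        ν⁻¹ • T.dd n φ
      have h4 : T.eta (tn b) = T.eta (tn a) + ((l * ν) • E.hb + T.tau (tn a) r +
        T.tau (tn b) r') := by rw [← h, add_sub_cancel]
      have h5 : algebraMap ℂ (T.R n) ν⁻¹ * algebraMap ℂ (T.R n) ν = 1 := by
        rw [← map_mul, inv_mul_cancel₀ hν, map_one]
      rw [h3, h4, map_smul, map_smul, map_sub]
      simp only [Algebra.smul_def, map_add, map_mul, Int.cast_neg, map_neg]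
      linear_combination (- (φ : T.R n) * E.hb *
        (algebraMap ℂ (T.R n) l + algebraMap ℂ (T.R n) k)) * h5

end EllD

theorem sel_eq (E : EllD T p q ν) {c c' : ℂ} (h : c = c') (i : Ix) :
    sel (c • E.hb) i n = c' • (E.h i - E.h n) := by
  cases i
  · change (0 : T.R n) = c' • ((0 : T.R n) - 0)
    rw [sub_zero, smul_zero]
  · change c • E.hb = c' • (E.hb - 0)
    rw [sub_zero, h]
  · change (0 : T.R n) = c' • ((0 : T.R n) - 0)
    rw [sub_zero, smul_zero]

/-- The reduction to the normalised situation. -/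
theorem fin : FIN := by
  intro hF hM hE T T' p q ν ν' l l' m m' E E' hq hd hν hν' hl hl' hll
  have hlm : l + m ≠ 0 := by
    intro h
    rw [h, zero_mul] at hll
    exact one_ne_zero (neg_eq_zero.1 hll.symm)
  have h1 := E.teq_nrm hq hν hl (m - 1)
  have h2 := E'.teq_nrm hq hν' hl' (m' + 1)
  have c1 : l + ((m - 1 : ℤ) : ℂ) = (1 - (l + m)⁻¹) / (l + m)⁻¹ := by
    push_cast
    field_simp
    ring
  have c2 : l' + ((m' + 1 : ℤ) : ℂ) = 1 - (l + m)⁻¹ := by
    push_cast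
    field_simp
    linear_combination hll
  obtain ⟨g, hg, hk⟩ := hE _ _ p q (E.nrm hν _ (E.w_smul_hb (l + ((m - 1 : ℤ) : ℂ))))
    (E'.nrm hν' _ (E'.w_smul_hb (l' + ((m' + 1 : ℤ) : ℂ)))) hq hd
  obtain ⟨K₁, K₂, L, ⟨P₁⟩, ⟨P₂⟩⟩ := hM _ _ (l + m)⁻¹ g (inv_ne_zero hlm) (fun i => by
    rw [hg]
    exact sel_eq E c1 i) (fun i => by
    rw [hg, map_sub, hk, hk]
    exact sel_eq E' c2 i)
  exact (h1.trans (hF _ _ _ _ K₁ K₂ L P₁ P₂)).trans h2.symm

end

end Vale.Agent.P286ET
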